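import Crest.Agent.R108.Sys

/-!
From the stabilisation step to a James sequence.
-/

set_option autoImplicit false

namespace Crest.Agent.R108

open Filter Topology Set

variable {X : Type*} [NormedAddCommGroup X] [NormedSpace ℝ X]

namespace Sys

variable {S : Type*}

lemma cvx_norm (v : X) (γ : ℝ) : Cvx fun x : X => ‖v + γ • x‖ := by
  intro x y a b ha hb hab
  have : v + γ • (a • x + b • y) = a • (v + γ • x) + b • (v + γ • y) := by
    have hb' : b = 1 - a := by linarith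
    rw [hb']
    module
  simp only
  rw [this]
  refine (norm_add_le _ _).trans (le_of_eq ?_)
  rw [norm_smul, norm_smul, Real.norm_of_nonneg ha, Real.norm_of_nonneg hb]

/-- Almost affinity of the norm along the segment from `x` to `x'`. -/
def Aff (V : Set X) (η : ℝ) (x x' : X) : Prop :=
  ∀ v ∈ V, ∀ γ ∈ Icc (0 : ℝ) 1, ∀ t ∈ Icc (0 : ℝ) 1,
    t * ‖v + γ • x‖ + (1 - t) * ‖v + γ • x'‖ - η ≤ ‖v + γ • (t • x + (1 - t) • x')‖

lemma Good.step' {A : Sys X S} {Q : X → Prop} (h : A.Good Q) {η : ℝ} (hη : 0 < η) {V : Set X}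
    (hV : IsCompact V) :
    ∃ x, Q x ∧ ‖x‖ ≤ A.D ∧ (∀ y ∈ V, A.θ ≤ ‖x - y‖) ∧ A.Good fun x' => Q x' ∧ Aff V η x x' := by
  have hD := A.D_nonneg
  set ρ := η / (8 * (1 + A.D)) with hρ
  have hρ0 : 0 < ρ := by positivity
  have hρη : ρ * (1 + A.D) = η / 8 := by rw [hρ]; field_simp
  obtain ⟨T, -, hT, hcov⟩ := finite_cover_balls_of_compact
    (hV.prod (isCompact_Icc (a := (0 : ℝ)) (b := 1))) hρ0
  set Φ : X → ℝ := fun x => ∑ q ∈ hT.toFinset, ‖q.1 + q.2 • x‖ with hΦ
  have hΦc : Cvx Φ := by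
    intro x y a b ha hb hab
    simp only [hΦ, Finset.mul_sum, ← Finset.sum_add_distrib]
    exact Finset.sum_le_sum fun q _ => cvx_norm q.1 q.2 x y a b ha hb hab
  have hΦB : ∀ x, ‖x‖ ≤ A.D → |Φ x| ≤ ∑ q ∈ hT.toFinset, (‖q.1‖ + |q.2| * A.D) := by
    intro x hx
    rw [abs_of_nonneg (Finset.sum_nonneg fun q _ => norm_nonneg _)]
    refine Finset.sum_le_sum fun q _ => (norm_add_le _ _).trans ?_
    rw [norm_smul, Real.norm_eq_abs]
    gcongr
  obtain ⟨x, hx1, hx2, hx3, hx4⟩ := h.step hΦc hΦB (show 0 < η / 4 by positivity) hV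
  refine ⟨x, hx1, hx2, hx3, hx4.mono ?_⟩
  rintro x' hx' ⟨hQ, hdef⟩
  refine ⟨hQ, fun v hv γ hγ t ht => ?_⟩
  obtain ⟨q, hqT, hq⟩ : ∃ q ∈ T, (v, γ) ∈ Metric.ball q ρ := by
    simpa using hcov (show (v, γ) ∈ V ×ˢ Icc (0 : ℝ) 1 from ⟨hv, hγ⟩)
  rw [Metric.mem_ball, Prod.dist_eq, max_lt_iff, dist_eq_norm, Real.dist_eq] at hq
  have hclose : ∀ z : X, ‖z‖ ≤ A.D → |‖v + γ • z‖ - ‖q.1 + q.2 • z‖| ≤ η / 8 := by
    intro z hz
    refine (abs_norm_sub_norm_le _ _).trans ?_
    have : v + γ • z - (q.1 + q.2 • z) = (v - q.1) + (γ - q.2) • z := by module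
    rw [this, ← hρη]
    refine (norm_add_le _ _).trans ?_
    rw [norm_smul, Real.norm_eq_abs]
    have h1 : |γ - q.2| * ‖z‖ ≤ ρ * A.D := by
      gcongr
      exact hq.2.le
    linarith [hq.1]
  set m : X := (1 / 2 : ℝ) • x + (1 / 2 : ℝ) • x' with hm
  have hmD : ‖m‖ ≤ A.D := by
    refine (norm_add_le _ _).trans ?_
    rw [norm_smul, norm_smul]
    norm_num
    linarith
  have hq1 : (‖q.1 + q.2 • x‖ + ‖q.1 + q.2 • x'‖) / 2 - ‖q.1 + q.2 • m‖ ≤ η / 4 := by
    refine le_trans ?_ hdef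
    simp only [hΦ]
    rw [← Finset.sum_add_distrib, Finset.sum_div, ← Finset.sum_sub_distrib]
    refine Finset.single_le_sum (f := fun q : X × ℝ =>
      (‖q.1 + q.2 • x‖ + ‖q.1 + q.2 • x'‖) / 2 - ‖q.1 + q.2 • m‖) (fun q _ => ?_)
      (hT.mem_toFinset.mpr hqT)
    have := cvx_norm q.1 q.2 x x' (1 / 2) (1 / 2) (by norm_num) (by norm_num) (by norm_num)
    simp only at this
    linarith
  have a1 := abs_le.mp (hclose x hx2)
  have a2 := abs_le.mp (hclose x' hx')
  have a3 := abs_le.mp (hclose m hmD)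
  have b1 := cvx_norm v γ x x' (1 - t) t (by linarith [ht.2]) ht.1 (by ring)
  have b2 := cvx_norm v γ (t • x + (1 - t) • x') ((1 - t) • x + t • x') (1 / 2) (1 / 2)
    (by norm_num) (by norm_num) (by norm_num)
  have b3 : (1 / 2 : ℝ) • (t • x + (1 - t) • x') + (1 / 2 : ℝ) • ((1 - t) • x + t • x') = m := by
    rw [hm]
    module
  simp only at b1 b2
  rw [b3] at b2
  linarith

lemma exists_seq (A : Sys X S) (s : S) (hs : 0 < A.c s) (η : ℕ → ℝ) (hη : ∀ k, 0 < η k) :
    ∃ (x : ℕ → X) (V : ℕ → Set X), (0 : X) ∈ V 0 ∧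
      (∀ k, ∀ v ∈ V k, ∀ a ∈ Icc (-1 : ℝ) 1, v + a • x k ∈ V (k + 1)) ∧
      (∀ k, ‖x k‖ ≤ A.D) ∧ (∀ k, ∀ y ∈ V k, A.θ ≤ ‖x k - y‖) ∧
      ∀ j n, j < n → Aff (V j) (η j) (x j) (x n) := by
  let T := {z : Set X × (X → Prop) // IsCompact z.1 ∧ A.Good z.2}
  have hstep : ∀ (k : ℕ) (z : T), ∃ x, z.1.2 x ∧ ‖x‖ ≤ A.D ∧ (∀ y ∈ z.1.1, A.θ ≤ ‖x - y‖) ∧
      A.Good fun x' => z.1.2 x' ∧ Aff z.1.1 (η k) x x' := fun k z => z.2.2.step' (hη k) z.2.1
  choose f hf1 hf2 hf3 hf4 using hstep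
  let next : ℕ → T → T := fun k z =>
    ⟨((fun q : X × ℝ => q.1 + q.2 • f k z) '' (z.1.1 ×ˢ Icc (-1 : ℝ) 1),
      fun x' => z.1.2 x' ∧ Aff z.1.1 (η k) (f k z) x'),
      (z.2.1.prod isCompact_Icc).image (by fun_prop), hf4 k z⟩
  let z : ℕ → T := fun k => Nat.rec ⟨({0}, fun _ => True), isCompact_singleton, A.good_true s hs⟩
    next k
  have hz : ∀ k, z (k + 1) = next k (z k) := fun k => rfl
  have hmono : ∀ j n, j ≤ n → ∀ x, (z n).1.2 x → (z j).1.2 x := by
    intro j n hjn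
    induction n, hjn using Nat.le_induction with
    | base => exact fun x h => h
    | succ n _ ih => exact fun x h => ih x h.1
  refine ⟨fun k => f k (z k), fun k => (z k).1.1, rfl, fun k v hv a ha => ⟨(v, a), ⟨hv, ha⟩, rfl⟩,
    fun k => hf2 k _, fun k => hf3 k _, fun j n hjn => ?_⟩
  exact (hmono (j + 1) n hjn _ (hf1 n (z n))).2

theorem not_reflexive (A : Sys X S) (s : S) (hs : 0 < A.c s)
    (hX : Function.Surjective (NormedSpace.inclusionInDoubleDual ℝ X)) : False := by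
  have hθ := A.θ_pos
  obtain ⟨x, V, hV0, hV, hxD, hsep, haff⟩ := A.exists_seq s hs (fun k => A.θ / 4 * (1 / 2) ^ k)
    (fun k => by positivity)
  have hVmono : ∀ j n, j ≤ n → V j ⊆ V n := by
    intro j n hjn
    induction n, hjn using Nat.le_induction with
    | base => exact Subset.rfl
    | succ n _ ih => exact fun v hv => by simpa using hV n v (ih hv) 0 (by simp)
  have hsum : ∀ (β : ℕ → ℝ), (∀ i, β i ∈ Icc (-1 : ℝ) 1) → ∀ N,
      ∑ i ∈ Finset.range N, β i • x i ∈ V N := by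
    intro β hβ N
    induction N with
    | zero => simpa using hV0
    | succ N ih => rw [Finset.sum_range_succ]; exact hV N _ ih _ (hβ N)
  -- convex combinations of the tail
  let C : ℕ → Set X := fun k => {z | ∃ (β : ℕ → ℝ) (N : ℕ), k ≤ N ∧ (∀ i, 0 ≤ β i) ∧
    (∀ i < k, β i = 0) ∧ (∀ i, N ≤ i → β i = 0) ∧ ∑ i ∈ Finset.range N, β i = 1 ∧
    z = ∑ i ∈ Finset.range N, β i • x i}
  have hext : ∀ (β : ℕ → ℝ) (N N' : ℕ), N ≤ N' → (∀ i, N ≤ i → β i = 0) →
      ∑ i ∈ Finset.range N', β i = ∑ i ∈ Finset.range N, β i ∧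
      ∑ i ∈ Finset.range N', β i • x i = ∑ i ∈ Finset.range N, β i • x i := by
    intro β N N' h hβ
    constructor
    · exact (Finset.sum_subset (Finset.range_mono h) fun i _ hi =>
        hβ i (by simpa using hi)).symm
    · exact (Finset.sum_subset (Finset.range_mono h) fun i _ hi => by
        rw [hβ i (by simpa using hi), zero_smul]).symm
  have hCconv : ∀ k, Convex ℝ (C k) := by
    rintro k _ ⟨β, N, h1, h2, h3, h4, h5, rfl⟩ _ ⟨β', N', h1', h2', h3', h4', h5', rfl⟩ a b ha hb hab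
    obtain ⟨e1, e2⟩ := hext β N (max N N') (le_max_left _ _) h4
    obtain ⟨e1', e2'⟩ := hext β' N' (max N N') (le_max_right _ _) h4'
    refine ⟨fun i => a * β i + b * β' i, max N N', h1.trans (le_max_left _ _),
      fun i => by have := h2 i; have := h2' i; positivity,
      fun i hi => by simp [h3 i hi, h3' i hi],
      fun i hi => by simp [h4 i ((le_max_left _ _).trans hi), h4' i ((le_max_right _ _).trans hi)],
      ?_, ?_⟩
    · rw [Finset.sum_add_distrib, ← Finset.mul_sum, ← Finset.mul_sum, e1, e1', h5, h5']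
      linarith
    · rw [← e2, ← e2', Finset.smul_sum, Finset.smul_sum, ← Finset.sum_add_distrib]
      exact Finset.sum_congr rfl fun i _ => by rw [add_smul, mul_smul, mul_smul]
  have hxC : ∀ k n, k ≤ n → x n ∈ C k := by
    intro k n hkn
    refine ⟨Pi.single n 1, n + 1, by omega, fun i => ?_, fun i hi => ?_, fun i hi => ?_, ?_, ?_⟩
    · by_cases h : i = n
      · subst h; simp
      · simp [h]
    · exact Pi.single_eq_of_ne (by omega) _
    · exact Pi.single_eq_of_ne (by omega) _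
    · rw [Finset.sum_eq_single n] <;> simp +contextual
    · rw [Finset.sum_eq_single n] <;> simp +contextual
  have hle1 : ∀ (β : ℕ → ℝ) (N : ℕ), (∀ i, 0 ≤ β i) → ∑ i ∈ Finset.range N, β i = 1 →
      ∀ j ≤ N, ∑ i ∈ Finset.range j, β i ≤ 1 := fun β N h2 h5 j hj =>
    h5 ▸ Finset.sum_le_sum_of_subset_of_nonneg (Finset.range_mono hj) fun i _ _ => h2 i
  have hfar : ∀ k, ∀ y, -y ∈ V k → y ∈ V k → ∀ z ∈ C k, A.θ / 2 ≤ ‖z - y‖ := by
    rintro k y hy hy' _ ⟨β, N, h1, h2, h3, h4, h5, rfl⟩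
    have key : ∀ j, k ≤ j → j ≤ N → (-y + ∑ i ∈ Finset.range j, β i • x i ∈ V j ∧
        ∀ n, j ≤ n → A.θ / 2 + A.θ / 2 * (1 / 2) ^ j ≤
          ‖-y + ∑ i ∈ Finset.range j, β i • x i + (1 - ∑ i ∈ Finset.range j, β i) • x n‖) := by
      intro j hkj
      induction j, hkj using Nat.le_induction with
      | base =>
        intro _
        have e1 : ∑ i ∈ Finset.range k, β i • x i = 0 :=
          Finset.sum_eq_zero fun i hi => by rw [h3 i (by simpa using hi), zero_smul]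
        have e2 : ∑ i ∈ Finset.range k, β i = 0 :=
          Finset.sum_eq_zero fun i hi => h3 i (by simpa using hi)
        rw [e1, e2]
        refine ⟨by simpa using hy, fun n hn => ?_⟩
        have := hsep n y (hVmono k n hn hy')
        have e3 : -y + 0 + (1 - 0 : ℝ) • x n = x n - y := by module
        have e4 : (1 / 2 : ℝ) ^ k ≤ 1 := pow_le_one₀ (by norm_num) (by norm_num)
        rw [e3]
        nlinarith
      | succ j hkj ih =>
        intro hjN
        obtain ⟨ih1, ih2⟩ := ih (by omega)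
        have g1 := hle1 β N h2 h5 (j + 1) hjN
        rw [Finset.sum_range_succ] at g1
        have g0 : 0 ≤ ∑ i ∈ Finset.range j, β i := Finset.sum_nonneg fun i _ => h2 i
        have gj := h2 j
        rw [Finset.sum_range_succ, Finset.sum_range_succ, ← add_assoc]
        refine ⟨hV j _ ih1 _ ⟨by linarith, by linarith⟩, fun n hn => ?_⟩
        set v := -y + ∑ i ∈ Finset.range j, β i • x i with hv
        set γ := 1 - ∑ i ∈ Finset.range j, β i with hγ
        obtain ⟨t, ht, hβt⟩ : ∃ t ∈ Icc (0 : ℝ) 1, β j = γ * t := by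
          rcases eq_or_lt_of_le (show 0 ≤ γ by linarith) with h0 | h0
          · exact ⟨0, by simp, by linarith⟩
          · exact ⟨β j / γ, ⟨by positivity, (div_le_one h0).mpr (by linarith)⟩, by field_simp⟩
        have a1 := haff j n hn v ih1 γ ⟨by linarith, by linarith⟩ t ht
        have a2 := ih2 j le_rfl
        have a3 := ih2 n (by omega)
        have e : v + β j • x j + (1 - (∑ i ∈ Finset.range j, β i + β j)) • x n =
            v + γ • (t • x j + (1 - t) • x n) := by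
          rw [show 1 - (∑ i ∈ Finset.range j, β i + β j) = γ - β j by rw [hγ]; ring, hβt]
          module
        rw [e, pow_succ]
        have b1 := mul_le_mul_of_nonneg_left a2 ht.1
        have b2 := mul_le_mul_of_nonneg_left a3 (show 0 ≤ 1 - t by linarith [ht.2])
        linarith
    have := (key N h1 le_rfl).2 N le_rfl
    rw [h5, sub_self, zero_smul, add_zero, neg_add_eq_sub] at this
    have e4 : 0 ≤ A.θ / 2 * (1 / 2 : ℝ) ^ N := by positivity
    linarith
  obtain ⟨w, hw⟩ := exists_wlim hX (hyperfilter ℕ) x A.D hxD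
  have hwC : ∀ k, w ∈ closure (C k) := fun k =>
    hw.mem (hCconv k).closure isClosed_closure
      (((eventually_ge_atTop k).filter_mono (Nat.hyperfilter_le_atTop)).mono fun n hn =>
        subset_closure (hxC k n hn))
  obtain ⟨y, ⟨β, N, -, h2, -, h4, h5, rfl⟩, hy⟩ :=
    Metric.mem_closure_iff.mp (hwC 0) (A.θ / 4) (by positivity)
  obtain ⟨z, hz, hz'⟩ := Metric.mem_closure_iff.mp (hwC N) (A.θ / 4) (by positivity)
  have hβ : ∀ i, β i ≤ 1 := by
    intro i
    by_cases hi : i < N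
    · exact h5 ▸ Finset.single_le_sum (fun i _ => h2 i) (Finset.mem_range.mpr hi)
    · rw [h4 i (not_lt.mp hi)]; norm_num
  have m1 := hsum β (fun i => ⟨by linarith [h2 i], hβ i⟩) N
  have m2 := hsum (fun i => -β i) (fun i => ⟨by linarith [hβ i], by linarith [h2 i]⟩) N
  simp only [neg_smul, Finset.sum_neg_distrib] at m2
  have := hfar N _ m2 m1 z hz
  rw [← dist_eq_norm] at this
  have t := dist_triangle_left z (∑ i ∈ Finset.range N, β i • x i) w
  linarith

end Sys

end Crest.Agent.R108
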