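import Crest.Agent.R108.James

/-!
Minimal invariant sets, the Goebel--Karlovitz lemma, resolvents, and the fixed point theorem.
-/

set_option autoImplicit false

namespace Crest.Agent.R108

open Filter Topology Set

variable {X : Type*} [NormedAddCommGroup X] [NormedSpace ℝ X]

/-- Nonempty closed convex invariant subsets of `C`. -/
def Inv (C : Set X) (T : X → X) (K : Set X) : Prop :=
  K ⊆ C ∧ K.Nonempty ∧ IsClosed K ∧ Convex ℝ K ∧ MapsTo T K K

lemma exists_minimal (hX : Function.Surjective (NormedSpace.inclusionInDoubleDual ℝ X))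
    {C : Set X} {T : X → X} (hC : Inv C T C) (hb : Bornology.IsBounded C) :
    ∃ K, Minimal (Inv C T) K := by
  obtain ⟨R, hR⟩ := hb.exists_norm_le
  have := zorn_superset_nonempty {K | Inv C T K} ?_ C hC
  · obtain ⟨K, -, hK⟩ := this
    exact ⟨K, hK⟩
  intro c hc hchain hne
  refine ⟨⋂₀ c, ⟨?_, ?_, ?_, ?_, ?_⟩, fun s hs => sInter_subset_of_mem hs⟩
  · obtain ⟨K, hK⟩ := hne
    exact (sInter_subset_of_mem hK).trans (hc hK).1
  · have : Nonempty c := hne.to_subtype
    have hdir : Directed (· ≥ ·) (fun K : c => 𝓟 {L : c | (L : Set X) ⊆ K}) := by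
      intro K L
      rcases hchain.total K.2 L.2 with h | h
      · exact ⟨K, le_rfl, principal_mono.mpr fun M hM => Subset.trans hM h⟩
      · exact ⟨L, principal_mono.mpr fun M hM => Subset.trans hM h, le_rfl⟩
    have : NeBot (⨅ K : c, 𝓟 {L : c | (L : Set X) ⊆ K}) :=
      iInf_neBot_of_directed' hdir fun K => principal_neBot_iff.mpr ⟨K, Subset.rfl⟩
    let U := Ultrafilter.of (⨅ K : c, 𝓟 {L : c | (L : Set X) ⊆ K})
    choose f hf using fun K : c => (hc K.2).2.1
    obtain ⟨w, hw⟩ := exists_wlim hX U f R fun K => hR _ ((hc K.2).1 (hf K))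
    refine ⟨w, fun K hK => hw.mem (hc hK).2.2.2.1 (hc hK).2.2.1 ?_⟩
    have : {L : c | (L : Set X) ⊆ K} ∈ (U : Filter c) :=
      Ultrafilter.of_le _ (mem_iInf_of_mem ⟨K, hK⟩ (mem_principal_self _))
    exact mem_of_superset this fun L hL => hL (hf L)
  · exact isClosed_sInter fun K hK => (hc hK).2.2.1
  · exact convex_sInter fun K hK => (hc hK).2.2.2.1
  · exact fun x hx K hK => (hc hK).2.2.2.2 (hx K hK)

section Minimal

variable {C K : Set X} {T : X → X} (hK : Minimal (Inv C T) K)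
  (hT : ∀ a ∈ K, ∀ b ∈ K, ‖T a - T b‖ ≤ ‖a - b‖)

include hK in
lemma min_sub {L : Set X} (h1 : (K ∩ L).Nonempty) (h2 : IsClosed L) (h3 : Convex ℝ L)
    (h4 : ∀ x ∈ K, x ∈ L → T x ∈ L) : K ⊆ L := by
  have : Inv C T (K ∩ L) := ⟨inter_subset_left.trans hK.1.1, h1, hK.1.2.2.1.inter h2,
    hK.1.2.2.2.1.inter h3, fun x hx => ⟨hK.1.2.2.2.2 hx.1, h4 x hx.1 hx.2⟩⟩
  exact (hK.2 this inter_subset_left).trans inter_subset_right

include hK hT in
lemma diametral {x : X} (hx : x ∈ K) {r : ℝ} (hr : ∀ y ∈ K, ‖x - y‖ ≤ r) :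
    ∀ a ∈ K, ∀ b ∈ K, ‖a - b‖ ≤ r := by
  have : K ⊆ ⋂ y ∈ K, Metric.closedBall y r := by
    refine min_sub hK ⟨x, hx, by simpa [dist_eq_norm] using hr⟩
      (isClosed_biInter fun y _ => Metric.isClosed_closedBall)
      (convex_iInter₂ fun y _ => convex_closedBall y r) fun z hz hz' => ?_
    simp only [mem_iInter, Metric.mem_closedBall, dist_eq_norm] at hz' ⊢
    have hTz : ∀ y ∈ K, T y ∈ Metric.closedBall (T z) r := fun y hy => by
      rw [Metric.mem_closedBall, dist_eq_norm, norm_sub_rev]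
      exact (hT z hz y hy).trans (hz' y hy)
    have hsub : K ⊆ Metric.closedBall (T z) r :=
      min_sub hK ⟨T z, hK.1.2.2.2.2 hz, hTz z hz⟩ Metric.isClosed_closedBall
        (convex_closedBall _ _) fun y hy _ => hTz y hy
    intro y hy
    have := hsub hy
    rwa [Metric.mem_closedBall, dist_eq_norm, norm_sub_rev] at this
  intro a ha b hb
  have := this ha
  simp only [mem_iInter, Metric.mem_closedBall, dist_eq_norm] at this
  exact this b hb

include hK hT in
/-- The Goebel--Karlovitz lemma. -/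
lemma goebel_karlovitz (hX : Function.Surjective (NormedSpace.inclusionInDoubleDual ℝ X))
    {R : ℝ} (hR : ∀ x ∈ K, ‖x‖ ≤ R) {d : ℝ}
    (hd : ∀ r, (∀ a ∈ K, ∀ b ∈ K, ‖a - b‖ ≤ r) → d ≤ r) {y : X} (hy : y ∈ K) {η : ℝ}
    (hη : 0 < η) : ∃ ε > 0, ∀ q ∈ K, ‖q - T q‖ ≤ ε → d - η ≤ ‖q - y‖ := by
  by_contra hcon
  push Not at hcon
  choose q hq1 hq2 hq3 using fun n : ℕ => hcon (1 / ((n : ℝ) + 1)) Nat.one_div_pos_of_nat
  let U := hyperfilter ℕ
  obtain ⟨w, hw⟩ := exists_wlim hX U q R fun n => hR _ (hq1 n)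
  have hwK : w ∈ K := hw.mem hK.1.2.2.2.1 hK.1.2.2.1 (Eventually.of_forall hq1)
  have hsmall : ∀ ε > 0, ∀ᶠ n in (U : Filter ℕ), ‖q n - T (q n)‖ ≤ ε := by
    intro ε hε
    have := (tendsto_one_div_add_atTop_nhds_zero_nat (𝕜 := ℝ)).eventually (gt_mem_nhds hε)
    exact (this.filter_mono Nat.hyperfilter_le_atTop).mono fun n hn => (hq2 n).trans hn.le
  let L : Set X := {x | ∀ ε > 0, ∀ᶠ n in (U : Filter ℕ), ‖q n - x‖ ≤ d - η + ε}
  have hKL : K ⊆ L := by
    refine min_sub hK ⟨y, hy, fun ε hε => Eventually.of_forall fun n => by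
      linarith [hq3 n]⟩ ?_ ?_ ?_
    · refine isClosed_of_closure_subset fun x hx ε hε => ?_
      obtain ⟨z, hz, hxz⟩ := Metric.mem_closure_iff.mp hx (ε / 2) (by positivity)
      refine (hz (ε / 2) (by positivity)).mono fun n hn => ?_
      rw [dist_eq_norm, norm_sub_rev] at hxz
      have := norm_sub_le_norm_sub_add_norm_sub (q n) z x
      linarith
    · intro a ha b hb s t hs ht hst ε hε
      filter_upwards [ha ε hε, hb ε hε] with n h1 h2
      have e : q n - (s • a + t • b) = s • (q n - a) + t • (q n - b) := by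
        have ht' : t = 1 - s := by linarith
        rw [ht']
        module
      rw [e]
      refine (norm_add_le _ _).trans ?_
      rw [norm_smul, norm_smul, Real.norm_of_nonneg hs, Real.norm_of_nonneg ht]
      have b1 := mul_le_mul_of_nonneg_left h1 hs
      have b2 := mul_le_mul_of_nonneg_left h2 ht
      have : s * (d - η + ε) + t * (d - η + ε) = d - η + ε := by rw [← add_mul, hst, one_mul]
      linarith
    · intro x hx hxL ε hε
      filter_upwards [hxL (ε / 2) (by positivity), hsmall (ε / 2) (by positivity)] with n h1 h2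
      have a1 := norm_sub_le_norm_sub_add_norm_sub (q n) (T (q n)) (T x)
      have a2 := hT _ (hq1 n) _ hx
      linarith
  have hwr : ∀ x ∈ K, ‖w - x‖ ≤ d - η := fun x hx =>
    (hw.sub (WLim.const x)).norm_le (hKL hx)
  have := hd _ (diametral hK hT hwK hwr)
  linarith

end Minimal

/-- The resolvent composed with an affine contraction. -/
lemma exists_resolvent [CompleteSpace X] {K : Set X} {T : X → X} (hK1 : IsClosed K)
    (hK2 : Convex ℝ K) (hK3 : MapsTo T K K) (hT : ∀ a ∈ K, ∀ b ∈ K, ‖T a - T b‖ ≤ ‖a - b‖)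
    {s : ℝ} (hs0 : 0 < s) (hs1 : s ≤ 1) :
    ∃ J : X → X, ∀ q ∈ K, J q ∈ K ∧ J q = s • q + (1 - s) • T (J q) := by
  have : ∀ q, ∃ y, q ∈ K → y ∈ K ∧ y = s • q + (1 - s) • T y := by
    intro q
    by_cases hq : q ∈ K
    · have : CompleteSpace K := hK1.completeSpace_coe
      have : Nonempty K := ⟨⟨q, hq⟩⟩
      let G : K → K := fun y => ⟨s • q + (1 - s) • T y, hK2 hq (hK3 y.2) hs0.le (by linarith)
        (by ring)⟩
      have hG : ContractingWith (NNReal.mk (1 - s) (by linarith)) G := by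
        refine ⟨NNReal.coe_lt_coe.mp (by simpa using hs0), LipschitzWith.of_dist_le_mul ?_⟩
        intro a b
        rw [Subtype.dist_eq, Subtype.dist_eq, dist_eq_norm, dist_eq_norm]
        simp only [G, add_sub_add_left_eq_sub, ← smul_sub, norm_smul, NNReal.coe_mk]
        rw [Real.norm_of_nonneg (by linarith)]
        exact mul_le_mul_of_nonneg_left (hT _ a.2 _ b.2) (by linarith)
      refine ⟨(hG.fixedPoint G : K), fun _ => ⟨(hG.fixedPoint G).2, ?_⟩⟩
      exact (congrArg Subtype.val hG.fixedPoint_isFixedPt).symm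
    · exact ⟨q, fun h => absurd h hq⟩
  choose J hJ using this
  exact ⟨J, hJ⟩

/-- Admissible maps: `b`-Lipschitz, moving approximate fixed points by at most `(1 - b) d`. -/
def Adm (K : Set X) (T : X → X) (d : ℝ) (B : X → X) (b : ℝ) : Prop :=
  0 < b ∧ MapsTo B K K ∧ (∀ x ∈ K, ∀ y ∈ K, ‖B x - B y‖ ≤ b * ‖x - y‖) ∧
    ∀ η > 0, ∃ ε > 0, ∀ q ∈ K, ‖q - T q‖ ≤ ε → ‖B q - q‖ ≤ (1 - b) * d + η

omit [NormedSpace ℝ X] in
lemma Adm.comp {K : Set X} {T : X → X} {d : ℝ} {B B' : X → X} {b b' : ℝ} (h : Adm K T d B b)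
    (h' : Adm K T d B' b') : Adm K T d (B ∘ B') (b * b') := by
  obtain ⟨h1, h2, h3, h4⟩ := h
  obtain ⟨h1', h2', h3', h4'⟩ := h'
  refine ⟨mul_pos h1 h1', h2.comp h2', fun x hx y hy => ?_, fun η hη => ?_⟩
  · refine (h3 _ (h2' hx) _ (h2' hy)).trans ?_
    rw [mul_assoc]
    exact mul_le_mul_of_nonneg_left (h3' x hx y hy) h1.le
  · obtain ⟨ε, hε, he⟩ := h4 (η / 2) (by positivity)
    obtain ⟨ε', hε', he'⟩ := h4' (η / (2 * b)) (by positivity)
    refine ⟨min ε ε', lt_min hε hε', fun q hq hq' => ?_⟩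
    have a1 := he q hq (hq'.trans (min_le_left _ _))
    have a2 := he' q hq (hq'.trans (min_le_right _ _))
    have a3 := h3 _ (h2' hq) _ hq
    have a4 := norm_sub_le_norm_sub_add_norm_sub (B (B' q)) (B q) q
    have a5 := mul_le_mul_of_nonneg_left a2 h1.le
    have a6 : b * (η / (2 * b)) = η / 2 := by field_simp
    simp only [Function.comp]
    nlinarith

lemma exists_adm [CompleteSpace X] {K : Set X} {T : X → X} (hK0 : K.Nonempty) (hK1 : IsClosed K)
    (hK2 : Convex ℝ K) (hK3 : MapsTo T K K) (hT : ∀ a ∈ K, ∀ b ∈ K, ‖T a - T b‖ ≤ ‖a - b‖)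
    {d : ℝ} (hd : ∀ a ∈ K, ∀ b ∈ K, ‖a - b‖ ≤ d) {b : ℝ} (hb0 : 0 < b) (hb1 : b ≤ 1) {ε : ℝ}
    (hε : 0 < ε) : ∃ B, Adm K T d B b ∧ ∀ q ∈ K, ‖B q - T (B q)‖ ≤ ε := by
  obtain ⟨z, hz⟩ := hK0
  have hd0 : 0 ≤ d := by simpa using hd z hz z hz
  set s := ε / (ε + d) with hs
  have hs0 : 0 < s := by positivity
  have hs1 : s ≤ 1 := (div_le_one (by positivity)).mpr (by linarith)
  have hsd : s * d ≤ ε := by
    rw [hs, div_mul_eq_mul_div, div_le_iff₀ (by positivity)]
    nlinarith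
  obtain ⟨J, hJ⟩ := exists_resolvent hK1 hK2 hK3 hT hs0 hs1
  have hJlip : ∀ x ∈ K, ∀ y ∈ K, ‖J x - J y‖ ≤ ‖x - y‖ := by
    intro x hx y hy
    have e : J x - J y = s • (x - y) + (1 - s) • (T (J x) - T (J y)) := by
      conv_lhs => rw [(hJ x hx).2, (hJ y hy).2]
      module
    have a1 := norm_add_le (s • (x - y)) ((1 - s) • (T (J x) - T (J y)))
    rw [← e, norm_smul, norm_smul, Real.norm_of_nonneg hs0.le,
      Real.norm_of_nonneg (by linarith)] at a1
    have a2 := mul_le_mul_of_nonneg_left (hT _ (hJ x hx).1 _ (hJ y hy).1)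
      (show 0 ≤ 1 - s by linarith)
    refine le_of_mul_le_mul_left ?_ hs0
    linarith
  have hJq : ∀ q ∈ K, s * ‖J q - q‖ ≤ ‖q - T q‖ := by
    intro q hq
    have e : J q - q = (1 - s) • (T (J q) - q) := by
      conv_lhs => rw [(hJ q hq).2]
      module
    have a1 := norm_sub_le_norm_sub_add_norm_sub (T (J q)) (T q) q
    have a2 := hT _ (hJ q hq).1 _ hq
    have a3 : ‖J q - q‖ = (1 - s) * ‖T (J q) - q‖ := by
      rw [e, norm_smul, Real.norm_of_nonneg (by linarith)]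
    rw [norm_sub_rev (T q) q] at a1
    have a4 := mul_le_mul_of_nonneg_left (a1.trans (add_le_add_left a2 _))
      (show 0 ≤ 1 - s by linarith)
    have a5 := norm_nonneg (q - T q)
    nlinarith
  have hL : ∀ q ∈ K, b • q + (1 - b) • z ∈ K := fun q hq =>
    hK2 hq hz hb0.le (by linarith) (by ring)
  refine ⟨fun q => J (b • q + (1 - b) • z), ⟨hb0, fun q hq => (hJ _ (hL q hq)).1,
    fun x hx y hy => ?_, fun η hη => ⟨s * η, by positivity, fun q hq hq' => ?_⟩⟩, fun q hq => ?_⟩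
  · refine (hJlip _ (hL x hx) _ (hL y hy)).trans (le_of_eq ?_)
    rw [add_sub_add_right_eq_sub, ← smul_sub, norm_smul, Real.norm_of_nonneg hb0.le]
  · have a1 := norm_sub_le_norm_sub_add_norm_sub (J (b • q + (1 - b) • z)) (J q) q
    have a2 := hJlip _ (hL q hq) _ hq
    have e : b • q + (1 - b) • z - q = (1 - b) • (z - q) := by module
    rw [e, norm_smul, Real.norm_of_nonneg (by linarith)] at a2
    have a3 := mul_le_mul_of_nonneg_left (hd z hz q hq) (show 0 ≤ 1 - b by linarith)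
    have a4 : ‖J q - q‖ ≤ η := le_of_mul_le_mul_left ((hJq q hq).trans hq') hs0
    linarith
  · set y := b • q + (1 - b) • z
    have e : J y - T (J y) = s • (y - T (J y)) := by
      calc J y - T (J y) = s • y + (1 - s) • T (J y) - T (J y) := by rw [← (hJ y (hL q hq)).2]
        _ = _ := by module
    simp only
    rw [e, norm_smul, Real.norm_of_nonneg hs0.le]
    exact (mul_le_mul_of_nonneg_left (hd _ (hL q hq) _ (hK3 (hJ _ (hL q hq)).1)) hs0.le).trans hsd

theorem main [CompleteSpace X]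
    (hX : Function.Surjective (NormedSpace.inclusionInDoubleDual ℝ X))
    (C : Set X) (hC₁ : C.Nonempty) (hC₂ : IsClosed C) (hC₃ : Bornology.IsBounded C)
    (hC₄ : Convex ℝ C) (T : X → X) (hF₁ : Set.MapsTo T C C)
    (hF₂ : ∀ a ∈ C, ∀ b ∈ C, ‖T a - T b‖ ≤ ‖a - b‖) :
    ∃ x ∈ C, T x = x := by
  obtain ⟨K, hK⟩ := exists_minimal hX ⟨Subset.rfl, hC₁, hC₂, hC₄, hF₁⟩ hC₃
  obtain ⟨hKC, hK0, hK1, hK2, hK3⟩ := hK.1
  have hT : ∀ a ∈ K, ∀ b ∈ K, ‖T a - T b‖ ≤ ‖a - b‖ := fun a ha b hb =>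
    hF₂ a (hKC ha) b (hKC hb)
  obtain ⟨R, hR'⟩ := hC₃.exists_norm_le
  have hR : ∀ x ∈ K, ‖x‖ ≤ R := fun x hx => hR' x (hKC hx)
  set d := Metric.diam K with hdd
  have hd : ∀ a ∈ K, ∀ b ∈ K, ‖a - b‖ ≤ d := fun a ha b hb => by
    rw [← dist_eq_norm]
    exact Metric.dist_le_diam_of_mem (hC₃.subset hKC) ha hb
  have hd' : ∀ r, (∀ a ∈ K, ∀ b ∈ K, ‖a - b‖ ≤ r) → d ≤ r := fun r hr =>
    Metric.diam_le_of_forall_dist_le_of_nonempty hK0 fun a ha b hb => by
      rw [dist_eq_norm]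
      exact hr a ha b hb
  by_contra hcon
  have hd0 : 0 < d := by
    obtain ⟨z, hz⟩ := hK0
    have h1 := hd _ (hK3 hz) z hz
    have h2 : T z - z ≠ 0 := fun h => hcon ⟨z, hKC hz, sub_eq_zero.mp h⟩
    exact (norm_pos_iff.mpr h2).trans_le h1
  -- an approximate fixed point sequence
  have hafp : ∀ n : ℕ, ∃ q ∈ K, ‖q - T q‖ ≤ 1 / ((n : ℝ) + 1) := by
    intro n
    obtain ⟨B, hB, hB'⟩ := exists_adm hK0 hK1 hK2 hK3 hT hd one_pos le_rfl
      (Nat.one_div_pos_of_nat (n := n))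
    obtain ⟨z, hz⟩ := hK0
    exact ⟨B z, hB.2.1 hz, hB' z hz⟩
  choose q hq1 hq2 using hafp
  let U := hyperfilter ℕ
  have hlim : ∀ ε > (0 : ℝ), ∀ᶠ n : ℕ in (U : Filter ℕ), 1 / ((n : ℝ) + 1) ≤ ε := by
    intro ε hε
    have := (tendsto_one_div_add_atTop_nhds_zero_nat (𝕜 := ℝ)).eventually (gt_mem_nhds hε)
    exact (this.filter_mono Nat.hyperfilter_le_atTop).mono fun n hn => hn.le
  let S := {z : (X → X) × ℝ // Adm K T d z.1 z.2}
  have hp : ∀ u : S, ∃ w, WLim (U : Filter ℕ) (fun n => u.1.1 (q n)) w := fun u =>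
    exists_wlim hX U _ R fun n => hR _ (u.2.2.1 (hq1 n))
  choose p hp using hp
  have hpK : ∀ u, p u ∈ K := fun u =>
    (hp u).mem hK2 hK1 (Eventually.of_forall fun n => u.2.2.1 (hq1 n))
  let Mv : S → S → ℕ → Prop := fun u v n => ∃ B b, Adm K T d B b ∧ b < 1 ∧
    v.1.1 = u.1.1 ∘ B ∧ v.1.2 = u.1.2 * b ∧ ∀ y ∈ K, ‖B y - T (B y)‖ ≤ 1 / ((n : ℝ) + 1)
  -- lower bound from the Goebel--Karlovitz lemma
  have hlow : ∀ (u : S) (y : X), y ∈ K → ∀ η > 0, ∃ n, ∀ v, Mv u v n →
      d * (u.1.2 - v.1.2) - η ≤ ‖p v - y‖ := by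
    intro u y hy η hη
    obtain ⟨ε₁, hε₁, h1⟩ := goebel_karlovitz hK hT hX hR hd' hy (show 0 < η / 2 by positivity)
    obtain ⟨ε₂, hε₂, h2⟩ := u.2.2.2.2 (η / 2) (by positivity)
    obtain ⟨n, hn⟩ := exists_nat_one_div_lt (lt_min hε₁ hε₂)
    refine ⟨n, ?_⟩
    rintro v ⟨B, b, hB, -, e1, e2, hfix⟩
    have hz := hq1 0
    have hBz := hB.2.1 hz
    have a1 := h1 _ hBz ((hfix _ hz).trans (hn.le.trans (min_le_left _ _)))
    have a2 := h2 _ hBz ((hfix _ hz).trans (hn.le.trans (min_le_right _ _)))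
    have a3 : ‖p v - v.1.1 (q 0)‖ ≤ v.1.2 * d :=
      ((hp v).sub (WLim.const _)).norm_le fun ε hε => Eventually.of_forall fun k => by
        have b1 := v.2.2.2.1 _ (hq1 k) _ hz
        have b2 := mul_le_mul_of_nonneg_left (hd _ (hq1 k) _ hz) v.2.1.le
        linarith
    rw [e1, Function.comp_apply, norm_sub_rev] at a3
    have a4 := norm_sub_le_norm_sub_add_norm_sub (B (q 0)) (u.1.1 (B (q 0))) y
    have a5 := norm_sub_le_norm_sub_add_norm_sub (u.1.1 (B (q 0))) (p v) y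
    rw [norm_sub_rev] at a2
    linarith
  have hbdd : ∀ u v, Mv u v 0 → ‖p v - p u‖ ≤ d * (u.1.2 - v.1.2) := by
    rintro u v ⟨B, b, hB, -, e1, e2, -⟩
    refine ((hp v).sub (hp u)).norm_le fun ε hε => ?_
    have hu := u.2.1
    obtain ⟨ε', hε', h⟩ := hB.2.2.2 (ε / u.1.2) (by positivity)
    filter_upwards [hlim ε' hε'] with n hn
    have a1 := h _ (hq1 n) ((hq2 n).trans hn)
    have a2 := u.2.2.2.1 _ (hB.2.1 (hq1 n)) _ (hq1 n)
    have a3 := mul_le_mul_of_nonneg_left a1 hu.le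
    have a4 : u.1.2 * (ε / u.1.2) = ε := by field_simp
    rw [e1, e2, Function.comp_apply]
    nlinarith
  have hmono : ∀ u v m n, m ≤ n → Mv u v n → Mv u v m := by
    rintro u v m n hmn ⟨B, b, hB, hb, e1, e2, hfix⟩
    refine ⟨B, b, hB, hb, e1, e2, fun y hy => (hfix y hy).trans ?_⟩
    gcongr
  let A : Sys X S :=
    { c := fun u => u.1.2
      p := p
      Mv := Mv
      D := d
      θ := d / 3
      D_nonneg := hd0.le
      θ_pos := by positivity
      mono := hmono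
      trans := by
        rintro u v w n ⟨B, b, hB, hb, e1, e2, hfix⟩ ⟨B', b', hB', hb', e1', e2', -⟩
        refine ⟨B ∘ B', b * b', hB.comp hB', by nlinarith [hB.1, hB'.1], by rw [e1', e1]; rfl,
          by rw [e2', e2, mul_assoc], fun y hy => hfix _ (hB'.2.1 hy)⟩
      lt := by
        rintro u v ⟨B, b, hB, hb, e1, e2, -⟩
        rw [e2]
        nlinarith [u.2.1]
      bdd := hbdd
      avail := by
        intro u n t ht ht'
        have hu := u.2.1
        have hb1 : t / u.1.2 < 1 := (div_lt_one hu).mpr ht'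
        obtain ⟨B, hB, hB'⟩ := exists_adm hK0 hK1 hK2 hK3 hT hd (div_pos ht hu) hb1.le
          (Nat.one_div_pos_of_nat (n := n))
        exact ⟨⟨(u.1.1 ∘ B, u.1.2 * (t / u.1.2)), u.2.comp hB⟩, ⟨B, _, hB, hb1, rfl, rfl, hB'⟩,
          by field_simp⟩
      sep := by
        intro u t Y hY ht
        by_contra hc
        push Not at hc
        choose v hv1 hv2 y hy1 hy2 using hc
        set a := u.1.2 - t with ha
        have ha0 : 0 < a := by linarith
        obtain ⟨w, hw⟩ := exists_wlim hX U (fun n => p (v n)) R fun n => hR _ (hpK _)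
        have hwK : w ∈ K := hw.mem hK2 hK1 (Eventually.of_forall fun n => hpK _)
        obtain ⟨y₀, -, hy₀⟩ := hY.ultrafilter_le_nhds (U.map y) (by
          rw [Ultrafilter.coe_map, le_principal_iff, mem_map]
          exact univ_mem' hy1)
        have hy₀' : ∀ ε > 0, ∀ᶠ n in (U : Filter ℕ), ‖y n - y₀‖ < ε := by
          intro ε hε
          have := Metric.tendsto_nhds.mp (show Tendsto y U (𝓝 y₀) from hy₀) ε hε
          simpa [dist_eq_norm] using this
        have hnear : ∀ ε > 0, ∀ᶠ n in (U : Filter ℕ),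
            ‖p (v n) - (p u + a • y₀)‖ ≤ a * (d / 3) + ε := by
          intro ε hε
          filter_upwards [hy₀' (ε / a) (by positivity)] with n hn
          have e : p (v n) - (p u + a • y₀) =
              a • ((a⁻¹ • (p (v n) - p u) - y n) + (y n - y₀)) := by
            rw [sub_add_sub_cancel, smul_sub, smul_inv_smul₀ ha0.ne']
            abel
          have b1 := hy2 n
          rw [hv2 n] at b1
          have b2 := norm_add_le (a⁻¹ • (p (v n) - p u) - y n) (y n - y₀)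
          rw [e, norm_smul, Real.norm_of_nonneg ha0.le]
          have b3 : a * (ε / a) = ε := by field_simp
          have b4 := mul_le_mul_of_nonneg_left (b2.trans (add_le_add b1.le hn.le)) ha0.le
          linarith
        have hw1 : ‖w - (p u + a • y₀)‖ ≤ a * (d / 3) := (hw.sub (WLim.const _)).norm_le hnear
        have had : 0 < a * d := by positivity
        obtain ⟨n, hn⟩ := hlow u w hwK (a * d / 12) (by positivity)
        obtain ⟨k, hk1, hk2⟩ := ((hnear (a * d / 12) (by positivity)).and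
          ((eventually_ge_atTop n).filter_mono Nat.hyperfilter_le_atTop)).exists
        have b1 := hn (v k) (hmono _ _ _ _ hk2 (hv1 k))
        rw [hv2 k] at b1
        have b2 := norm_sub_le_norm_sub_add_norm_sub (p (v k)) (p u + a • y₀) w
        rw [norm_sub_rev] at hw1
        linarith }
  have hid : Adm K T d id 1 :=
    ⟨one_pos, mapsTo_id K, fun x _ y _ => by simp, fun η hη => ⟨1, one_pos, fun q _ _ => by
      simpa using hη.le⟩⟩
  exact A.not_reflexive ⟨(id, 1), hid⟩ one_pos hX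

end Crest.Agent.R108
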