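import Crest.Agent.R108.Weak

/-!
An abstract system of moves with additive mass cannot exist in a reflexive space.
-/

set_option autoImplicit false

namespace Crest.Agent.R108

open Filter Topology Set

variable {X : Type*} [NormedAddCommGroup X] [NormedSpace ℝ X]

/-- States `S`, remaining mass `c`, position `p`, moves of level `n`. -/
structure Sys (X : Type*) [NormedAddCommGroup X] [NormedSpace ℝ X] (S : Type*) where
  c : S → ℝ
  p : S → X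
  Mv : S → S → ℕ → Prop
  D : ℝ
  θ : ℝ
  D_nonneg : 0 ≤ D
  θ_pos : 0 < θ
  mono : ∀ u v m n, m ≤ n → Mv u v n → Mv u v m
  trans : ∀ u v w n, Mv u v n → Mv v w 0 → Mv u w n
  lt : ∀ u v, Mv u v 0 → c v < c u
  bdd : ∀ u v, Mv u v 0 → ‖p v - p u‖ ≤ D * (c u - c v)
  avail : ∀ u n t, 0 < t → t < c u → ∃ v, Mv u v n ∧ c v = t
  sep : ∀ u t (Y : Set X), IsCompact Y → t < c u →
    ∃ n, ∀ v, Mv u v n → c v = t → ∀ y ∈ Y, θ ≤ ‖(c u - c v)⁻¹ • (p v - p u) - y‖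

namespace Sys

variable {S : Type*} (A : Sys X S)

/-- The normalised increment. -/
noncomputable def x (u v : S) : X := (A.c u - A.c v)⁻¹ • (A.p v - A.p u)

lemma norm_x_le {u v : S} (h : A.Mv u v 0) : ‖A.x u v‖ ≤ A.D := by
  have h1 := A.lt u v h
  have h2 := A.bdd u v h
  rw [x, norm_smul, Real.norm_eq_abs, abs_of_pos (inv_pos.mpr (by linarith)),
    inv_mul_le_iff₀ (by linarith)]
  linarith

lemma x_comb {u v w : S} (h1 : A.c v < A.c u) (h2 : A.c w < A.c v) :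
    A.x u w = ((A.c u - A.c v) / (A.c u - A.c w)) • A.x u v +
      ((A.c v - A.c w) / (A.c u - A.c w)) • A.x v w := by
  have e1 : A.c u - A.c v ≠ 0 := by linarith
  have e2 : A.c v - A.c w ≠ 0 := by linarith
  have e3 : A.c u - A.c w ≠ 0 := by linarith
  simp only [x, smul_smul]
  rw [show (A.c u - A.c v) / (A.c u - A.c w) * (A.c u - A.c v)⁻¹ = (A.c u - A.c w)⁻¹ by
      field_simp,
    show (A.c v - A.c w) / (A.c u - A.c w) * (A.c v - A.c w)⁻¹ = (A.c u - A.c w)⁻¹ by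
      field_simp, ← smul_add]
  congr 1
  abel

/-- Convexity in explicit form. -/
def Cvx (Φ : X → ℝ) : Prop :=
  ∀ x y : X, ∀ a b : ℝ, 0 ≤ a → 0 ≤ b → a + b = 1 → Φ (a • x + b • y) ≤ a * Φ x + b * Φ y

lemma cvx_sub {Φ : X → ℝ} (hΦ : Cvx Φ) {u v w : S} (h1 : A.c v < A.c u) (h2 : A.c w < A.c v) :
    (A.c u - A.c w) * Φ (A.x u w) ≤
      (A.c u - A.c v) * Φ (A.x u v) + (A.c v - A.c w) * Φ (A.x v w) := by
  have e3 : 0 < A.c u - A.c w := by linarith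
  have := hΦ (A.x u v) (A.x v w) ((A.c u - A.c v) / (A.c u - A.c w))
    ((A.c v - A.c w) / (A.c u - A.c w)) (div_nonneg (by linarith) e3.le)
    (div_nonneg (by linarith) e3.le) (by field_simp; ring)
  rw [← A.x_comb h1 h2] at this
  have h3 := mul_le_mul_of_nonneg_left this e3.le
  refine h3.trans (le_of_eq ?_)
  field_simp

/-- A window in which the property `Q` is controlled by a superadditive potential. -/
def Good (Q : X → Prop) : Prop :=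
  ∃ (R : S → S → Prop) (s : S) (e δ : ℝ) (Ψ : S → S → ℝ), δ < 1 ∧ e < A.c s ∧
    (∀ u v, R u v → A.Mv u v 0) ∧
    (∀ u v w, R u v → R v w → R u w) ∧
    (∀ u, (u = s ∨ R s u) → ∀ t n, e ≤ t → t < A.c u → ∃ v, R u v ∧ A.Mv u v n ∧ A.c v = t) ∧
    (∀ u v, R u v → 0 ≤ Ψ u v) ∧
    (∀ u v w, R u v → R v w →
      (A.c u - A.c v) * Ψ u v + (A.c v - A.c w) * Ψ v w ≤ (A.c u - A.c w) * Ψ u w) ∧
    (∀ v, R s v → A.c v = e → Ψ s v ≤ δ) ∧
    (∀ u v, R u v → Ψ u v ≤ 1 → Q (A.x u v))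

lemma good_true (s : S) (hs : 0 < A.c s) : A.Good fun _ => True := by
  refine ⟨fun u v => A.Mv u v 0, s, A.c s / 2, 0, fun _ _ => 0, one_pos, by linarith,
    fun _ _ h => h, fun u v w h1 h2 => A.trans u v w 0 h1 h2, ?_, fun _ _ _ => le_rfl,
    fun _ _ _ _ _ => by simp, fun _ _ _ => le_rfl, fun _ _ _ _ => trivial⟩
  intro u _ t n h1 h2
  obtain ⟨v, hv, hv'⟩ := A.avail u n t (by linarith) h2
  exact ⟨v, A.mono u v 0 n (Nat.zero_le _) hv, hv, hv'⟩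

lemma Good.mono {A : Sys X S} {Q Q' : X → Prop} (h : A.Good Q)
    (hQ : ∀ x, ‖x‖ ≤ A.D → Q x → Q' x) : A.Good Q' := by
  obtain ⟨R, s, e, δ, Ψ, h1, h2, h3, h4, h5, h6, h7, h8, h9⟩ := h
  exact ⟨R, s, e, δ, Ψ, h1, h2, h3, h4, h5, h6, h7, h8,
    fun u v huv hΨ => hQ _ (A.norm_x_le (h3 u v huv)) (h9 u v huv hΨ)⟩

set_option maxHeartbeats 1000000 in
lemma Good.step {A : Sys X S} {Q : X → Prop} (h : A.Good Q) {Φ : X → ℝ} (hΦ : Cvx Φ) {B : ℝ}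
    (hB : ∀ x, ‖x‖ ≤ A.D → |Φ x| ≤ B) {η : ℝ} (hη : 0 < η) {Y : Set X} (hY : IsCompact Y) :
    ∃ x, Q x ∧ ‖x‖ ≤ A.D ∧ (∀ y ∈ Y, A.θ ≤ ‖x - y‖) ∧
      A.Good fun x' => Q x' ∧
        (Φ x + Φ x') / 2 - Φ ((1 / 2 : ℝ) • x + (1 / 2 : ℝ) • x') ≤ η := by
  obtain ⟨R, s, e, δ, Ψ, h1, h2, h3, h4, h5, h6, h7, h8, h9⟩ := h
  have hB0 : 0 ≤ B := (abs_nonneg _).trans (hB 0 (by simpa using A.D_nonneg))
  set g := 1 - δ with hg
  have hg0 : 0 < g := by linarith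
  set ε := g * η / 8 with hε
  have hε0 : 0 < ε := by positivity
  set M := 4 * (2 * B + 3 * ε) / g with hM
  have hM0 : 0 < M := by positivity
  have hMg : 2 * B + 3 * ε = M * (g / 4) := by rw [hM]; field_simp
  set Γ : S → S → ℝ := fun u v => Φ (A.x u v) - M * Ψ u v with hΓ
  have hΓsub : ∀ u v w, R u v → R v w →
      (A.c u - A.c w) * Γ u w ≤ (A.c u - A.c v) * Γ u v + (A.c v - A.c w) * Γ v w := by
    intro u v w huv hvw
    have a1 := A.cvx_sub hΦ (A.lt u v (h3 u v huv)) (A.lt v w (h3 v w hvw))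
    have a2 := mul_le_mul_of_nonneg_left (h7 u v w huv hvw) hM0.le
    simp only [hΓ]
    nlinarith
  have hΦB : ∀ u v, R u v → |Φ (A.x u v)| ≤ B := fun u v huv =>
    hB _ (A.norm_x_le (h3 u v huv))
  set L : Set ℝ := {r | ∃ u t n, (u = s ∨ R s u) ∧ e ≤ t ∧ t < A.c u ∧
    ∀ v, R u v → A.Mv u v n → A.c v = t → r ≤ Γ u v} with hL
  have hL0 : -B - M * δ ∈ L := by
    refine ⟨s, e, 0, Or.inl rfl, le_rfl, h2, fun v hv _ hv' => ?_⟩
    have a1 := (abs_le.mp (hΦB s v hv)).1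
    have a2 := mul_le_mul_of_nonneg_left (h8 v hv hv') hM0.le
    simp only [hΓ]
    linarith
  have hLb : BddAbove L := by
    refine ⟨B, ?_⟩
    rintro r ⟨u, t, n, hu, ht, ht', hr⟩
    obtain ⟨v, hv, hv1, hv2⟩ := h5 u hu t n ht ht'
    have a1 := (abs_le.mp (hΦB u v hv)).2
    have a2 := mul_nonneg hM0.le (h6 u v hv)
    have a3 := hr v hv hv1 hv2
    simp only [hΓ] at a3
    linarith
  set l := sSup L with hl
  have hl0 : -B - M * δ ≤ l := le_csSup hLb hL0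
  obtain ⟨r, ⟨u₁, t₁, n₁, hu₁, ht₁, ht₁', hr⟩, hlr⟩ :=
    exists_lt_of_lt_csSup ⟨_, hL0⟩ (show l - ε < l by linarith)
  have hav : ∀ u, (u = s ∨ R s u) → ∀ t n, e ≤ t → t < A.c u →
      ∃ v, (R u v ∧ Γ u v ≤ l + ε) ∧ A.Mv u v n ∧ A.c v = t := by
    intro u hu t n ht ht'
    by_contra hcon
    have : l + ε ∈ L := by
      refine ⟨u, t, n, hu, ht, ht', fun v hv hv1 hv2 => ?_⟩
      by_contra hlt
      exact hcon ⟨v, ⟨hv, (not_le.mp hlt).le⟩, hv1, hv2⟩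
    have := le_csSup hLb this
    linarith
  set tm := (A.c u₁ + t₁) / 2 with htm
  obtain ⟨n₂, hn₂⟩ := A.sep u₁ tm Y hY (by linarith)
  obtain ⟨v₁, ⟨hv₁, hv₁Γ⟩, hv₁M, hv₁c⟩ := hav u₁ hu₁ tm (max n₁ n₂) (by linarith) (by linarith)
  have hsv₁ : R s v₁ := by
    rcases hu₁ with rfl | hu₁
    · exact hv₁
    · exact h4 _ _ _ hu₁ hv₁
  -- fillings of the second half
  have hfill : ∀ v, R v₁ v → A.c v = t₁ →
      l - ε ≤ Γ u₁ v ∧ Ψ u₁ v₁ + Ψ v₁ v ≤ 2 * Ψ u₁ v ∧ 2 * Γ u₁ v ≤ Γ u₁ v₁ + Γ v₁ v ∧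
        A.x u₁ v = (1 / 2 : ℝ) • A.x u₁ v₁ + (1 / 2 : ℝ) • A.x v₁ v := by
    intro v hv hvc
    have hpos : 0 < A.c u₁ - t₁ := by linarith
    refine ⟨?_, ?_, ?_, ?_⟩
    · exact hlr.le.trans (hr v (h4 _ _ _ hv₁ hv)
        (A.trans _ _ _ _ (A.mono _ _ _ _ (le_max_left _ _) hv₁M) (h3 _ _ hv)) hvc)
    · have := h7 u₁ v₁ v hv₁ hv
      rw [hv₁c, hvc, htm] at this
      refine le_of_mul_le_mul_left ?_ (half_pos hpos)
      linarith
    · have := hΓsub u₁ v₁ v hv₁ hv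
      rw [hv₁c, hvc, htm] at this
      refine le_of_mul_le_mul_left ?_ (half_pos hpos)
      linarith
    · rw [A.x_comb (A.lt _ _ (h3 _ _ hv₁)) (A.lt _ _ (h3 _ _ hv)), hv₁c, hvc, htm]
      congr 2
      · field_simp
        ring
      · field_simp
        ring
  have hΨle : ∀ u v, R u v → l - 3 * ε ≤ Γ u v → Ψ u v ≤ δ + g / 4 := by
    intro u v huv hΓ'
    have a1 := (abs_le.mp (hΦB u v huv)).2
    simp only [hΓ] at hΓ'
    refine le_of_mul_le_mul_left ?_ hM0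
    nlinarith
  obtain ⟨v₂, ⟨hv₂, hv₂Γ⟩, -, hv₂c⟩ := hav v₁ (Or.inr hsv₁) t₁ 0 ht₁ (by linarith)
  refine ⟨A.x u₁ v₁, h9 _ _ hv₁ ?_, A.norm_x_le (h3 _ _ hv₁), ?_, ?_⟩
  · obtain ⟨a1, -, a3, -⟩ := hfill v₂ hv₂ hv₂c
    have := hΨle u₁ v₁ hv₁ (by linarith)
    linarith
  · exact hn₂ v₁ (A.mono _ _ _ _ (le_max_right _ _) hv₁M) hv₁c
  set Φ' : X → ℝ := fun x' => Φ ((1 / 2 : ℝ) • A.x u₁ v₁ + (1 / 2 : ℝ) • x') with hΦ'
  have hΦ'c : Cvx Φ' := by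
    intro x y a b ha hb hab
    have := hΦ ((1 / 2 : ℝ) • A.x u₁ v₁ + (1 / 2 : ℝ) • x)
      ((1 / 2 : ℝ) • A.x u₁ v₁ + (1 / 2 : ℝ) • y) a b ha hb hab
    simp only [hΦ']
    convert this using 2
    have hb' : b = 1 - a := by linarith
    rw [hb']
    module
  set Δ : S → S → ℝ := fun u v =>
    (Φ (A.x u₁ v₁) + (l + ε + M * Ψ u v)) / 2 - Φ' (A.x u v) with hΔ
  have hΔ1 : ∀ u v, Γ u v ≤ l + ε →
      (Φ (A.x u₁ v₁) + Φ (A.x u v)) / 2 - Φ' (A.x u v) ≤ Δ u v := by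
    intro u v huv
    simp only [hΓ] at huv
    simp only [hΔ]
    linarith
  have hΔ0 : ∀ u v, Γ u v ≤ l + ε → 0 ≤ Δ u v := by
    intro u v huv
    have a1 := hΔ1 u v huv
    have a2 := hΦ (A.x u₁ v₁) (A.x u v) (1 / 2) (1 / 2) (by norm_num) (by norm_num) (by norm_num)
    simp only [hΦ'] at a1
    linarith
  refine ⟨fun u v => R u v ∧ Γ u v ≤ l + ε, v₁, t₁, δ + g / 2,
    fun u v => Ψ u v + η⁻¹ * Δ u v, by linarith, by linarith, fun u v huv => h3 u v huv.1,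
    ?_, ?_, ?_, ?_, ?_, ?_⟩
  · rintro u v w ⟨huv, huv'⟩ ⟨hvw, hvw'⟩
    refine ⟨h4 _ _ _ huv hvw, ?_⟩
    have a1 := A.lt u v (h3 u v huv)
    have a2 := A.lt v w (h3 v w hvw)
    have a3 := hΓsub u v w huv hvw
    refine le_of_mul_le_mul_left ?_ (show 0 < A.c u - A.c w by linarith)
    nlinarith
  · intro u hu t n ht ht'
    refine hav u (Or.inr ?_) t n (by linarith) ht'
    rcases hu with rfl | hu
    · exact hsv₁
    · exact h4 _ _ _ hsv₁ hu.1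
  · rintro u v ⟨huv, huv'⟩
    have := h6 u v huv
    have := hΔ0 u v huv'
    positivity
  · rintro u v w ⟨huv, -⟩ ⟨hvw, -⟩
    have a1 := h7 u v w huv hvw
    have a2 := A.cvx_sub hΦ'c (A.lt u v (h3 u v huv)) (A.lt v w (h3 v w hvw))
    have a3 := mul_le_mul_of_nonneg_left a1 hM0.le
    have a4 : (A.c u - A.c v) * Δ u v + (A.c v - A.c w) * Δ v w ≤ (A.c u - A.c w) * Δ u w := by
      simp only [hΔ]
      nlinarith
    have a5 := mul_le_mul_of_nonneg_left a4 (inv_pos.mpr hη).le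
    nlinarith
  · rintro v ⟨hv, hv'⟩ hvc
    obtain ⟨a1, a2, a3, a4⟩ := hfill v hv hvc
    have b1 := hΨle v₁ v hv (by linarith)
    have b2 : Δ v₁ v ≤ 2 * ε := by
      have c1 := mul_le_mul_of_nonneg_left a2 hM0.le
      simp only [hΓ] at a1 hv₁Γ
      simp only [hΔ, hΦ']
      rw [← a4]
      linarith
    have b3 : η⁻¹ * Δ v₁ v ≤ g / 4 := by
      rw [inv_mul_le_iff₀ hη]
      linarith
    show Ψ v₁ v + η⁻¹ * Δ v₁ v ≤ δ + g / 2
    linarith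
  · rintro u v ⟨huv, huv'⟩ hΨ
    have a1 := h6 u v huv
    have a2 := hΔ0 u v huv'
    have a3 : 0 ≤ η⁻¹ * Δ u v := by positivity
    have a4 : η⁻¹ * Δ u v ≤ 1 := by linarith
    rw [inv_mul_le_iff₀ hη] at a4
    exact ⟨h9 u v huv (by linarith), (hΔ1 u v huv').trans (by linarith)⟩

end Sys

end Crest.Agent.R108
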