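import Mathlib

/-!
Weak limits along ultrafilters in a reflexive space.
-/

set_option autoImplicit false

namespace Crest.Agent.R108

open Filter Topology Set

variable {X : Type*} [NormedAddCommGroup X] [NormedSpace ℝ X]

/-- `x` is the weak limit of `f` along `U`. -/
def WLim {ι : Type*} (U : Filter ι) (f : ι → X) (x : X) : Prop :=
  ∀ φ : StrongDual ℝ X, Tendsto (fun i => φ (f i)) U (𝓝 (φ x))

lemma exists_wlim (hX : Function.Surjective (NormedSpace.inclusionInDoubleDual ℝ X))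
    {ι : Type*} (U : Ultrafilter ι) (f : ι → X) (R : ℝ) (hf : ∀ i, ‖f i‖ ≤ R) :
    ∃ x, WLim (U : Filter ι) f x := by
  have h1 : ∀ φ : StrongDual ℝ X, ∃ a : ℝ, |a| ≤ R * ‖φ‖ ∧
      Tendsto (fun i => φ (f i)) U (𝓝 a) := by
    intro φ
    have hmem : ∀ i, φ (f i) ∈ Icc (-(R * ‖φ‖)) (R * ‖φ‖) := by
      intro i
      have : |φ (f i)| ≤ R * ‖φ‖ := by
        calc |φ (f i)| = ‖φ (f i)‖ := rfl
          _ ≤ ‖φ‖ * ‖f i‖ := φ.le_opNorm _
          _ ≤ ‖φ‖ * R := by gcongr; exact hf i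
          _ = R * ‖φ‖ := mul_comm _ _
      exact abs_le.mp this
    obtain ⟨a, ha, hle⟩ := (isCompact_Icc (a := -(R * ‖φ‖)) (b := R * ‖φ‖)).ultrafilter_le_nhds
      (U.map fun i => φ (f i)) (by
        rw [Ultrafilter.coe_map, le_principal_iff, mem_map]
        exact univ_mem' hmem)
    exact ⟨a, abs_le.mpr ha, hle⟩
  choose L hL1 hL2 using h1
  let L' : StrongDual ℝ X →ₗ[ℝ] ℝ :=
    { toFun := L
      map_add' := fun φ ψ => tendsto_nhds_unique (hL2 (φ + ψ)) (by
        simpa using (hL2 φ).add (hL2 ψ))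
      map_smul' := fun a φ => tendsto_nhds_unique (hL2 (a • φ)) (by
        simpa using (hL2 φ).const_mul a) }
  obtain ⟨x, hx⟩ := hX (L'.mkContinuous R fun φ => hL1 φ)
  refine ⟨x, fun φ => ?_⟩
  have : φ x = L φ := by
    have := congrArg (fun g => g φ) hx
    simp only [NormedSpace.dual_def, LinearMap.mkContinuous_apply] at this
    exact this
  rw [this]
  exact hL2 φ

lemma WLim.mem {ι : Type*} {U : Filter ι} [U.NeBot] {f : ι → X} {x : X} (h : WLim U f x)
    {C : Set X} (hC : Convex ℝ C) (hC' : IsClosed C) (hf : ∀ᶠ i in U, f i ∈ C) : x ∈ C := by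
  by_contra hx
  obtain ⟨φ, u, h1, h2⟩ := geometric_hahn_banach_point_closed hC hC' hx
  have : u ≤ φ x := ge_of_tendsto (h φ) (hf.mono fun i hi => (h2 _ hi).le)
  linarith

lemma WLim.sub {ι : Type*} {U : Filter ι} {f g : ι → X} {x y : X} (h : WLim U f x)
    (h' : WLim U g y) : WLim U (fun i => f i - g i) (x - y) := fun φ => by
  simpa using (h φ).sub (h' φ)

lemma WLim.const {ι : Type*} {U : Filter ι} (x : X) : WLim U (fun _ => x) x := fun _ =>
  tendsto_const_nhds

lemma WLim.norm_le {ι : Type*} {U : Filter ι} [U.NeBot] {f : ι → X} {x : X} (h : WLim U f x)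
    {r : ℝ} (hf : ∀ ε > 0, ∀ᶠ i in U, ‖f i‖ ≤ r + ε) : ‖x‖ ≤ r := by
  refine le_of_forall_pos_le_add fun ε hε => ?_
  have := h.mem (convex_closedBall 0 (r + ε)) Metric.isClosed_closedBall
    ((hf ε hε).mono fun i hi => by simpa using hi)
  simpa using this

end Crest.Agent.R108
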